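import Vale.Agent.Lib.P160.AntiConc

/-!
P160: exposing everything but a `T × T` block of a symmetric sign matrix.

If, among the symmetric sign matrices with a property `P` that agree outside the block
`T × T`, the row sums of the block are determined, then `P` has at most
`G t t * 2 ^ (choose (n + 1) 2 - choose (t + 1) 2)` elements (`t = |T|`), stated without
subtraction as `block_count`.
-/

namespace Vale.Agent.Lib.P160

open Finset Matrix

namespace H28

variable {ι : Type} [Fintype ι] [DecidableEq ι]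

/-- the matrix with the entries of the block `T × T` replaced by ones -/
def out (T : Finset ι) (A : Matrix ι ι ℤˣ) : Matrix ι ι ℤˣ :=
  fun i j => if i ∈ T ∧ j ∈ T then 1 else A i j

/-- the block `T × T` of a matrix -/
def blk (T : Finset ι) (A : Matrix ι ι ℤˣ) : Matrix {k // k ∈ T} {k // k ∈ T} ℤˣ :=
  fun i j => A i.1 j.1

/-- the matrix with block `B` on `T × T` and the entries of `O` elsewhere -/
def glue (T : Finset ι) (O : Matrix ι ι ℤˣ) (B : Matrix {k // k ∈ T} {k // k ∈ T} ℤˣ) :
    Matrix ι ι ℤˣ :=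
  fun i j => if h : i ∈ T ∧ j ∈ T then B ⟨i, h.1⟩ ⟨j, h.2⟩ else O i j

omit [Fintype ι] in
theorem glue_of_mem (T : Finset ι) (O : Matrix ι ι ℤˣ) (B : Matrix {k // k ∈ T} {k // k ∈ T} ℤˣ)
    {i j : ι} (h : i ∈ T ∧ j ∈ T) : glue T O B i j = B ⟨i, h.1⟩ ⟨j, h.2⟩ :=
  dif_pos h

omit [Fintype ι] in
theorem glue_of_not (T : Finset ι) (O : Matrix ι ι ℤˣ) (B : Matrix {k // k ∈ T} {k // k ∈ T} ℤˣ)
    {i j : ι} (h : ¬ (i ∈ T ∧ j ∈ T)) : glue T O B i j = O i j :=
  dif_neg h

omit [Fintype ι] in
theorem out_of_mem (T : Finset ι) (A : Matrix ι ι ℤˣ) {i j : ι} (h : i ∈ T ∧ j ∈ T) :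
    out T A i j = 1 :=
  if_pos h

omit [Fintype ι] in
theorem out_of_not (T : Finset ι) (A : Matrix ι ι ℤˣ) {i j : ι} (h : ¬ (i ∈ T ∧ j ∈ T)) :
    out T A i j = A i j :=
  if_neg h

omit [Fintype ι] in
theorem out_eq_iff (T : Finset ι) (A A' : Matrix ι ι ℤˣ) :
    out T A = out T A' ↔ ∀ i j, ¬ (i ∈ T ∧ j ∈ T) → A i j = A' i j := by
  constructor
  · intro h i j hij
    have h1 := congrFun (congrFun h i) j
    unfold out at h1
    rw [if_neg hij, if_neg hij] at h1
    exact h1
  · intro h
    funext i j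
    unfold out
    by_cases hij : i ∈ T ∧ j ∈ T
    · rw [if_pos hij, if_pos hij]
    · rw [if_neg hij, if_neg hij]
      exact h i j hij

end H28

open Classical in
/-- **Block exposure.**  If, among the symmetric sign matrices with `P` that agree outside the
block `T × T`, the row sums of the block are determined, then the number of symmetric sign
matrices with `P`, times the number of symmetric sign matrices on `T`, is at most
`G |T| |T|` times the number of all symmetric sign matrices. -/
theorem block_count {ι : Type} [Fintype ι] [DecidableEq ι] (T : Finset ι)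
    (P : Matrix ι ι ℤˣ → Prop)
    (h : ∀ A ∈ symSet ι, ∀ B ∈ symSet ι, P A → P B →
      (∀ i j, ¬ (i ∈ T ∧ j ∈ T) → A i j = B i j) →
      ∀ i ∈ T, ∑ j ∈ T, ((A i j : ℤ) : ℝ) = ∑ j ∈ T, ((B i j : ℤ) : ℝ)) :
    ((symSet ι).filter P).card * 2 ^ (Nat.choose (T.card + 1) 2) ≤
      G T.card T.card * (symSet ι).card := by
  set S := (symSet ι).filter P with hS
  set I := S.image (H28.out T) with hI
  have hcardT : Fintype.card {k // k ∈ T} = T.card := Fintype.card_coe T
  -- (1) the fibres of `out` are small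
  have h1 : S.card ≤ G T.card T.card * I.card := by
    refine Finset.card_le_mul_card_image S (G T.card T.card) ?_
    intro O hO
    obtain ⟨A0, hA0, rfl⟩ := Finset.mem_image.mp hO
    have hA0' := Finset.mem_filter.mp hA0
    have hle := count_eq_le T.card {k // k ∈ T} hcardT (fun _ => (1 : ℝ))
      (fun i => ∑ j ∈ T, ((A0 i.1 j : ℤ) : ℝ))
    have hfil : (univ.filter fun _ : {k // k ∈ T} => (1 : ℝ) ≠ 0).card = T.card := by
      rw [Finset.filter_true_of_mem (fun _ _ => one_ne_zero), Finset.card_univ, hcardT]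
    rw [hfil] at hle
    refine le_trans ?_ hle
    refine Finset.card_le_card_of_injOn (H28.blk T) ?_ ?_
    · intro A hA
      have hA1 := Finset.mem_filter.mp (Finset.mem_coe.mp hA)
      have hA2 := Finset.mem_filter.mp hA1.1
      rw [Finset.mem_coe, Finset.mem_filter]
      refine ⟨?_, ?_⟩
      · rw [mem_symSet]
        intro a b
        exact (mem_symSet.mp hA2.1) a.1 b.1
      · funext i
        rw [toR_mulVec]
        unfold sdot
        simp only [mul_one]
        have hagree := (H28.out_eq_iff T A A0).mp hA1.2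
        have h2 := h A hA2.1 A0 hA0'.1 hA2.2 hA0'.2 hagree i.1 i.2
        rw [← h2]
        exact Finset.sum_coe_sort T (fun j => ((A i.1 j : ℤ) : ℝ))
    · intro A hA A' hA' hb
      have hA1 := Finset.mem_filter.mp (Finset.mem_coe.mp hA)
      have hA1' := Finset.mem_filter.mp (Finset.mem_coe.mp hA')
      have hagree := (H28.out_eq_iff T A A').mp (hA1.2.trans hA1'.2.symm)
      refine Matrix.ext (fun i j => ?_)
      by_cases hij : i ∈ T ∧ j ∈ T
      · exact congrFun (congrFun hb ⟨i, hij.1⟩) ⟨j, hij.2⟩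
      · exact hagree i j hij
  -- (2) gluing a block into an exposed matrix is injective
  have h2 : I.card * (symSet {k // k ∈ T}).card ≤ (symSet ι).card := by
    rw [← Finset.card_product]
    refine Finset.card_le_card_of_injOn (fun p => H28.glue T p.1 p.2) ?_ ?_
    · intro p hp
      rw [Finset.mem_coe, Finset.mem_product] at hp
      obtain ⟨A, hA, hAO⟩ := Finset.mem_image.mp hp.1
      have hAs := mem_symSet.mp (Finset.mem_filter.mp hA).1
      have hBs := mem_symSet.mp hp.2
      rw [Finset.mem_coe, mem_symSet]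
      intro a b
      show H28.glue T p.1 p.2 a b = H28.glue T p.1 p.2 b a
      by_cases hab : a ∈ T ∧ b ∈ T
      · have hba : b ∈ T ∧ a ∈ T := ⟨hab.2, hab.1⟩
        rw [H28.glue_of_mem T p.1 p.2 hab, H28.glue_of_mem T p.1 p.2 hba]
        exact hBs _ _
      · have hba : ¬ (b ∈ T ∧ a ∈ T) := fun h' => hab ⟨h'.2, h'.1⟩
        rw [H28.glue_of_not T p.1 p.2 hab, H28.glue_of_not T p.1 p.2 hba, ← hAO,
          H28.out_of_not T A hab, H28.out_of_not T A hba]
        exact hAs a b
    · intro p hp p' hp' hg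
      rw [Finset.mem_coe, Finset.mem_product] at hp hp'
      obtain ⟨A, hA, hAO⟩ := Finset.mem_image.mp hp.1
      obtain ⟨A', hA', hAO'⟩ := Finset.mem_image.mp hp'.1
      have hg' : ∀ i j, H28.glue T p.1 p.2 i j = H28.glue T p'.1 p'.2 i j :=
        fun i j => congrFun (congrFun hg i) j
      refine Prod.ext ?_ ?_
      · refine Matrix.ext (fun i j => ?_)
        by_cases hij : i ∈ T ∧ j ∈ T
        · rw [← hAO, ← hAO', H28.out_of_mem T A hij, H28.out_of_mem T A' hij]
        · have h3 := hg' i j
          rw [H28.glue_of_not T p.1 p.2 hij, H28.glue_of_not T p'.1 p'.2 hij] at h3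
          exact h3
      · refine Matrix.ext (fun i j => ?_)
        have h3 := hg' i.1 j.1
        rw [H28.glue_of_mem T p.1 p.2 ⟨i.2, j.2⟩, H28.glue_of_mem T p'.1 p'.2 ⟨i.2, j.2⟩] at h3
        exact h3
  have h3 : (symSet {k // k ∈ T}).card = 2 ^ (Nat.choose (T.card + 1) 2) := by
    rw [card_symSet, hcardT]
  calc S.card * 2 ^ (Nat.choose (T.card + 1) 2)
      ≤ (G T.card T.card * I.card) * 2 ^ (Nat.choose (T.card + 1) 2) :=
        Nat.mul_le_mul_right _ h1
    _ = G T.card T.card * (I.card * (symSet {k // k ∈ T}).card) := by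
        rw [h3, Nat.mul_assoc]
    _ ≤ G T.card T.card * (symSet ι).card := Nat.mul_le_mul_left _ h2

end Vale.Agent.Lib.P160
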